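import Vale.Agent.P237.Bd3.B1

/-!
# P237: stability from compactness

If the affine invariant functional `ratio` is minimized exactly by the ellipsoids, then bodies whose
ratio is close to the minimum are close to ellipsoids.
-/

open MeasureTheory Metric Set Module TopologicalSpace
open scoped Pointwise

namespace Vale.Agent.P237.H406

open Vale.Agent.P237

variable {V : Type*} [NormedAddCommGroup V] [InnerProductSpace ℝ V] [FiniteDimensional ℝ V]
  [MeasurableSpace V] [BorelSpace V]

/-- `K` lies between an ellipsoid and the same ellipsoid dilated by `1 + ε` about its centre. -/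
def Near (ε : ℝ) (K : Set V) : Prop :=
  ∃ (a : V) (T : V ≃ₗ[ℝ] V), (∀ x ∈ closedBall (0 : V) 1, a + T x ∈ K) ∧
    ∀ y ∈ K, ∃ x ∈ closedBall (0 : V) 1, y = a + (1 + ε) • T x

omit [InnerProductSpace ℝ V] [FiniteDimensional ℝ V] [MeasurableSpace V] [BorelSpace V] in
theorem isCompact_sub {A B : Set V} (hA : IsCompact A) (hB : IsCompact B) :
    IsCompact (A - B) := by
  have h : A - B = (fun p : V × V => p.1 - p.2) '' (A ×ˢ B) :=
    (Set.image_prod (fun x y : V => x - y)).symm
  rw [h]
  exact (hA.prod hB).image continuous_sub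

omit [InnerProductSpace ℝ V] [FiniteDimensional ℝ V] [MeasurableSpace V] [BorelSpace V] in
theorem exists_near (K L : NonemptyCompacts V) {ε : ℝ} (h : dist K L < ε) {x : V}
    (hx : x ∈ (K : Set V)) : ∃ y ∈ (L : Set V), dist x y < ε := by
  have hfin : hausdorffEDist (K : Set V) L ≠ ⊤ :=
    hausdorffEDist_ne_top_of_nonempty_of_bounded K.nonempty L.nonempty
      K.isCompact.isBounded L.isCompact.isBounded
  rw [NonemptyCompacts.dist_eq] at h
  exact exists_dist_lt_of_hausdorffDist_lt hx h hfin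

/-- The normalized convex sets. -/
def TT (ρ : ℝ) : Set (NonemptyCompacts V) :=
  {K | Convex ℝ (K : Set V) ∧ (K : Set V) ⊆ closedBall (0 : V) ρ ∧
    ∀ z ∈ closedBall (0 : V) 1, ∃ x ∈ (K : Set V), ∃ y ∈ (K : Set V), z = x - y}

omit [InnerProductSpace ℝ V] [FiniteDimensional ℝ V] [MeasurableSpace V] [BorelSpace V] in
theorem mem_of_forall (K : NonemptyCompacts V) (x : V)
    (h : ∀ ε > 0, ∃ y ∈ (K : Set V), dist x y < ε) : x ∈ (K : Set V) := by
  have : x ∈ closure (K : Set V) := Metric.mem_closure_iff.2 h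
  rwa [K.isCompact.isClosed.closure_eq] at this

omit [MeasurableSpace V] [BorelSpace V] in
theorem isCompact_TT (ρ : ℝ) : IsCompact (TT ρ : Set (NonemptyCompacts V)) := by
  have hc : IsCompact {K : NonemptyCompacts V | (K : Set V) ⊆ closedBall (0 : V) ρ} :=
    NonemptyCompacts.isCompact_subsets_of_isCompact (isCompact_closedBall 0 ρ)
  refine hc.of_isClosed_subset ?_ (fun K hK => hK.2.1)
  refine isClosed_of_closure_subset fun K hK => ?_
  rw [Metric.mem_closure_iff] at hK
  refine ⟨?_, ?_, ?_⟩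
  · intro x hx y hy a b ha hb hab
    refine mem_of_forall K _ fun ε hε => ?_
    obtain ⟨L, hL, hKL⟩ := hK (ε / 3) (by positivity)
    obtain ⟨x', hx', hxx⟩ := exists_near K L hKL hx
    obtain ⟨y', hy', hyy⟩ := exists_near K L hKL hy
    obtain ⟨z, hz, hzz⟩ := exists_near L K (by rwa [dist_comm]) (hL.1 hx' hy' ha hb hab)
    refine ⟨z, hz, ?_⟩
    have h1 : dist (a • x + b • y) (a • x' + b • y') ≤ ε / 3 + ε / 3 := by
      refine (dist_add_add_le _ _ _ _).trans (add_le_add ?_ ?_)
      · rw [dist_smul₀, Real.norm_of_nonneg ha]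
        have : a * dist x x' ≤ 1 * dist x x' := by
          gcongr
          linarith
        linarith
      · rw [dist_smul₀, Real.norm_of_nonneg hb]
        have : b * dist y y' ≤ 1 * dist y y' := by
          gcongr
          linarith
        linarith
    have := dist_triangle (a • x + b • y) (a • x' + b • y') z
    linarith
  · intro x hx
    rw [mem_closedBall_zero_iff]
    refine le_of_forall_pos_le_add fun ε hε => ?_
    obtain ⟨L, hL, hKL⟩ := hK ε hε
    obtain ⟨x', hx', hxx⟩ := exists_near K L hKL hx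
    have h1 := mem_closedBall_zero_iff.1 (hL.2.1 hx')
    have h2 := norm_le_norm_add_norm_sub' x x'
    rw [dist_eq_norm] at hxx
    linarith
  · intro z hz
    have hcomp : IsCompact ((K : Set V) - (K : Set V)) := isCompact_sub K.isCompact K.isCompact
    have hcl : z ∈ closure ((K : Set V) - (K : Set V)) := by
      rw [Metric.mem_closure_iff]
      intro ε hε
      obtain ⟨L, hL, hKL⟩ := hK (ε / 2) (by positivity)
      obtain ⟨x, hx, y, hy, hxy⟩ := hL.2.2 z hz
      obtain ⟨x', hx', hxx⟩ := exists_near L K (by rwa [dist_comm]) hx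
      obtain ⟨y', hy', hyy⟩ := exists_near L K (by rwa [dist_comm]) hy
      refine ⟨x' - y', Set.sub_mem_sub hx' hy', ?_⟩
      rw [hxy]
      refine (dist_sub_sub_le _ _ _ _).trans_lt ?_
      linarith
    rw [hcomp.isClosed.closure_eq] at hcl
    obtain ⟨x, hx, y, hy, hxy⟩ := Set.mem_sub.1 hcl
    exact ⟨x, hx, y, hy, hxy.symm⟩

omit [MeasurableSpace V] [BorelSpace V] in
theorem isBody_of_TT {ρ : ℝ} {K : NonemptyCompacts V} (hK : K ∈ TT ρ) : IsBody (K : Set V) := by
  refine ⟨hK.1, K.isCompact, ?_⟩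
  rw [hK.1.interior_nonempty_iff_affineSpan_eq_top]
  have hne : (K : Set V).Nonempty := K.nonempty
  rw [AffineSubspace.affineSpan_eq_top_iff_vectorSpan_eq_top_of_nonempty ℝ V V hne]
  rw [eq_top_iff]
  intro z _
  by_cases hz : z = 0
  · rw [hz]; exact Submodule.zero_mem _
  have hn : 0 < ‖z‖ := norm_pos_iff.2 hz
  obtain ⟨x, hx, y, hy, hxy⟩ := hK.2.2 (‖z‖⁻¹ • z) (by
    rw [mem_closedBall_zero_iff, norm_smul, norm_inv, norm_norm, inv_mul_cancel₀ hn.ne'])
  have h1 : ‖z‖⁻¹ • z ∈ vectorSpan ℝ (K : Set V) := by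
    rw [hxy]
    exact vsub_mem_vectorSpan ℝ hx hy
  have h2 := Submodule.smul_mem (vectorSpan ℝ (K : Set V)) ‖z‖ h1
  rwa [smul_smul, mul_inv_cancel₀ hn.ne', one_smul] at h2

omit [FiniteDimensional ℝ V] [MeasurableSpace V] [BorelSpace V] in
/-- Dilation of a convex set about the centre of a ball it contains. -/
theorem dilate {K L : Set V} (hL : Convex ℝ L) {a : V} {r η : ℝ} (hr : 0 < r) (hη : 0 < η)
    (hball : closedBall a r ⊆ L) (hKL : ∀ x ∈ K, ∃ y ∈ L, dist x y < η) {x : V} (hx : x ∈ K) :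
    a + (1 + η / r)⁻¹ • (x - a) ∈ L := by
  obtain ⟨y, hy, hxy⟩ := hKL x hx
  set t : ℝ := η / r with ht
  have ht0 : 0 < t := by positivity
  have hz : a + t⁻¹ • (x - y) ∈ L := by
    apply hball
    rw [mem_closedBall, dist_eq_norm, add_sub_cancel_left, norm_smul, norm_inv,
      Real.norm_of_nonneg ht0.le, ← dist_eq_norm, inv_mul_le_iff₀ ht0]
    have : t * r = η := by rw [ht]; field_simp
    linarith
  have hc := hL hy hz (a := (1 + t)⁻¹) (b := t * (1 + t)⁻¹) (by positivity) (by positivity)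
    (by field_simp)
  have he : a + (1 + t)⁻¹ • (x - a) = (1 + t)⁻¹ • y + (t * (1 + t)⁻¹) • (a + t⁻¹ • (x - y)) := by
    have h1 : (1 + t) ≠ 0 := by positivity
    have h4 : (t * (1 + t)⁻¹) • (t⁻¹ • (x - y)) = (1 + t)⁻¹ • (x - y) := by
      rw [smul_smul]
      congr 1
      field_simp
    have h5 : (t * (1 + t)⁻¹) • a = a - (1 + t)⁻¹ • a := by
      have h6 : t * (1 + t)⁻¹ = 1 - (1 + t)⁻¹ := by field_simp; ring
      rw [h6, sub_smul, one_smul]
    rw [smul_add, h4, h5, smul_sub, smul_sub]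
    abel
  rw [he]
  exact hc

omit [FiniteDimensional ℝ V] [MeasurableSpace V] [BorelSpace V] in
/-- If a set near the closed convex set `K` contains a ball, `K` contains a smaller ball. -/
theorem erode {K L : Set V} (hK : Convex ℝ K) (hKc : IsCompact K) (hne : K.Nonempty) {a : V}
    {r η : ℝ} (hη : 0 < η) (hηr : η ≤ r / 2) (hball : closedBall a r ⊆ L)
    (hLK : ∀ x ∈ L, ∃ y ∈ K, dist x y < η) : closedBall a (r / 2) ⊆ K := by
  intro x hx
  by_contra hxK
  obtain ⟨v, hv, hmin⟩ := exists_norm_eq_iInf_of_complete_convex hne hKc.isComplete hK x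
  rw [norm_eq_iInf_iff_real_inner_le_zero hK hv] at hmin
  set d : V := x - v with hd
  have hd0 : d ≠ 0 := by
    intro h
    rw [hd, sub_eq_zero] at h
    exact hxK (h ▸ hv)
  have hn : 0 < ‖d‖ := norm_pos_iff.2 hd0
  set z : V := x + (η / ‖d‖) • d with hz
  have hnorm : ‖(η / ‖d‖) • d‖ = η := by
    rw [norm_smul, Real.norm_of_nonneg (by positivity)]
    field_simp
  have hza : z ∈ closedBall a r := by
    rw [mem_closedBall, dist_eq_norm] at hx ⊢
    have h1 : z - a = (x - a) + (η / ‖d‖) • d := by rw [hz]; abel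
    rw [h1]
    refine (norm_add_le _ _).trans ?_
    rw [hnorm]
    linarith
  obtain ⟨y, hy, hzy⟩ := hLK z (hball hza)
  have h1 : inner ℝ d (z - y) = ‖d‖ ^ 2 + η * ‖d‖ - inner ℝ d (y - v) := by
    have h2 : z - y = d + (η / ‖d‖) • d - (y - v) := by rw [hz, hd]; abel
    rw [h2, inner_sub_right, inner_add_right, inner_smul_right, real_inner_self_eq_norm_sq]
    field_simp
  have h3 := hmin y hy
  have h4 : inner ℝ d (z - y) ≤ ‖d‖ * ‖z - y‖ := real_inner_le_norm _ _
  rw [dist_eq_norm] at hzy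
  have h5 : ‖d‖ * ‖z - y‖ < ‖d‖ * η := mul_lt_mul_of_pos_left hzy hn
  nlinarith

/-- Comparison of the ratios of two close bodies. -/
theorem compare {K L : Set V} (hK : IsBody K) (hL : IsBody L) {c : ℝ} (hc : 1 ≤ c)
    (h1 : K ⊆ c • L) (h2 : L ⊆ c • K) :
    ratio K ≤ c ^ (finrank ℝ V * (finrank ℝ V - 1)) * c ^ (finrank ℝ V * (finrank ℝ V - 1)) *
        ratio L := by
  have hc0 : 0 < c := by linarith
  have hP : IsCompact (projBody L) := (projBody_isSymBody hL).compact
  -- volumes
  have hv : vol L ≤ c ^ finrank ℝ V * vol K := by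
    rw [← vol_smul_set_of_nonneg hc0.le K]
    exact ENNReal.toReal_mono (hK.compact.smul c).measure_lt_top.ne (measure_mono h2)
  -- projection bodies
  have hb : ∀ v, beta K v ≤ c ^ (finrank ℝ V - 1) * beta L v := by
    intro v
    rw [← beta_smul_set hL.compact hL.convex hc0]
    exact beta_mono hK.compact hK.convex (hL.compact.smul c) (hL.convex.smul c) h1 v
  have hcd : 0 < c ^ (finrank ℝ V - 1) := by positivity
  have hp : projBody K ⊆ c ^ (finrank ℝ V - 1) • projBody L := by
    intro y hy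
    refine ⟨(c ^ (finrank ℝ V - 1))⁻¹ • y, ?_, ?_⟩
    · intro u hu
      have h3 := hy u hu
      rw [← beta_unit hK.compact hK.convex hu] at h3
      rw [← beta_unit hL.compact hL.convex hu, real_inner_smul_left, inv_mul_le_iff₀ hcd]
      exact h3.trans (hb u)
    · simp only [smul_smul]
      rw [mul_inv_cancel₀ hcd.ne', one_smul]
  have hpv : vol (projBody K) ≤ c ^ (finrank ℝ V * (finrank ℝ V - 1)) * vol (projBody L) := by
    have h3 : vol (projBody K) ≤ vol (c ^ (finrank ℝ V - 1) • projBody L) :=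
      ENNReal.toReal_mono (hP.smul _).measure_lt_top.ne
        (measure_mono hp)
    rwa [vol_smul_set_of_nonneg hcd.le, ← pow_mul, mul_comm (finrank ℝ V - 1)] at h3
  have hKpos := Main.vol_pos hK
  have hLpos := Main.vol_pos hL
  have hv' : vol L ^ (finrank ℝ V - 1) ≤
      c ^ (finrank ℝ V * (finrank ℝ V - 1)) * vol K ^ (finrank ℝ V - 1) := by
    have := pow_le_pow_left₀ hLpos.le hv (finrank ℝ V - 1)
    rwa [mul_pow, ← pow_mul] at this
  have hP0 : 0 ≤ vol (projBody L) := ENNReal.toReal_nonneg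
  unfold ratio
  rw [div_le_iff₀ (by positivity)]
  calc vol (projBody K) ≤ c ^ (finrank ℝ V * (finrank ℝ V - 1)) * vol (projBody L) := hpv
    _ = c ^ (finrank ℝ V * (finrank ℝ V - 1)) *
        (vol (projBody L) / vol L ^ (finrank ℝ V - 1)) * vol L ^ (finrank ℝ V - 1) := by
      field_simp
    _ ≤ c ^ (finrank ℝ V * (finrank ℝ V - 1)) *
        (vol (projBody L) / vol L ^ (finrank ℝ V - 1)) *
        (c ^ (finrank ℝ V * (finrank ℝ V - 1)) * vol K ^ (finrank ℝ V - 1)) := by
      gcongr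
    _ = _ := by ring

omit [FiniteDimensional ℝ V] [MeasurableSpace V] [BorelSpace V] in
/-- Two Hausdorff close bodies, one of which contains a ball about `a`, are comparable by
dilations about `a`. -/
theorem close_both {K L : NonemptyCompacts V} (hK : Convex ℝ (K : Set V))
    (hL : Convex ℝ (L : Set V)) {a : V} {r t : ℝ} (hr : 0 < r) (ht : 0 < t) (ht1 : t ≤ 1)
    (hball : closedBall a r ⊆ (L : Set V)) (hd : dist K L < t * (r / 2)) :
    (∀ x ∈ (K : Set V), a + (1 + t)⁻¹ • (x - a) ∈ (L : Set V)) ∧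
      ∀ x ∈ (L : Set V), a + (1 + t)⁻¹ • (x - a) ∈ (K : Set V) := by
  have hKL : ∀ x ∈ (K : Set V), ∃ y ∈ (L : Set V), dist x y < t * (r / 2) :=
    fun x hx => exists_near K L hd hx
  have hLK : ∀ x ∈ (L : Set V), ∃ y ∈ (K : Set V), dist x y < t * (r / 2) :=
    fun x hx => exists_near L K (by rwa [dist_comm]) hx
  have hη : 0 < t * (r / 2) := by positivity
  have hη2 : t * (r / 2) ≤ r / 2 := by nlinarith
  have hballK : closedBall a (r / 2) ⊆ (K : Set V) :=
    erode hK K.isCompact K.nonempty hη hη2 hball hLK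
  have hballL : closedBall a (r / 2) ⊆ (L : Set V) :=
    (closedBall_subset_closedBall (by linarith)).trans hball
  have he : t * (r / 2) / (r / 2) = t := by field_simp
  constructor
  · intro x hx
    have := dilate hL (by positivity : (0 : ℝ) < r / 2) hη hballL hKL hx
    rwa [he] at this
  · intro x hx
    have := dilate hK (by positivity : (0 : ℝ) < r / 2) hη hballK hLK hx
    rwa [he] at this

theorem ratio_close {K L : NonemptyCompacts V} (hK : IsBody (K : Set V))
    (hL : IsBody (L : Set V)) {a : V} {t : ℝ} (ht : 0 < t)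
    (h1 : ∀ x ∈ (K : Set V), a + (1 + t)⁻¹ • (x - a) ∈ (L : Set V))
    (h2 : ∀ x ∈ (L : Set V), a + (1 + t)⁻¹ • (x - a) ∈ (K : Set V)) :
    ratio (L : Set V) ≤ (1 + t) ^ (finrank ℝ V * (finrank ℝ V - 1)) *
      (1 + t) ^ (finrank ℝ V * (finrank ℝ V - 1)) * ratio (K : Set V) := by
  have key : ∀ {A B : Set V}, (∀ x ∈ A, a + (1 + t)⁻¹ • (x - a) ∈ B) →
      (fun x => -a + x) '' A ⊆ (1 + t) • ((fun x => -a + x) '' B) := by
    rintro A B hAB _ ⟨x, hx, rfl⟩
    refine ⟨-a + (a + (1 + t)⁻¹ • (x - a)), ⟨_, hAB x hx, rfl⟩, ?_⟩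
    have h0 : (1 + t) ≠ 0 := by positivity
    simp only [neg_add_cancel_left]
    rw [smul_smul, mul_inv_cancel₀ h0, one_smul]
    abel
  rw [← ratio_translate (L : Set V) (-a), ← ratio_translate (K : Set V) (-a)]
  exact compare (hL.translate (-a)) (hK.translate (-a)) (by linarith) (key h2) (key h1)

/-- Every body has a normalized affine image. -/
theorem exists_normalized {K : Set V} (hK : IsBody K) :
    ∃ (T : V ≃ₗ[ℝ] V) (c : V) (K' : NonemptyCompacts V),
      (K' : Set V) = (fun x => c + x) '' (T '' K) ∧ K' ∈ TT (2 ^ finrank ℝ V) := by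
  have hD : IsSymBody (K - K) := by
    refine ⟨⟨hK.convex.sub hK.convex, isCompact_sub hK.compact hK.compact, ?_⟩, ?_⟩
    · obtain ⟨x, hx⟩ := hK.int
      have hxK : x ∈ K := interior_subset hx
      have h1 : (fun y => -x + y) '' K ⊆ K - K := by
        rintro _ ⟨y, hy, rfl⟩
        exact Set.mem_sub.2 ⟨y, hy, x, hxK, (neg_add_eq_sub x y).symm⟩
      exact (hK.translate (-x)).int.mono (interior_mono h1)
    · intro z hz
      obtain ⟨x, hx, y, hy, rfl⟩ := Set.mem_sub.1 hz
      exact Set.mem_sub.2 ⟨y, hy, x, hx, by abel⟩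
  obtain ⟨T, hT⟩ := exists_johnPos hD
  have hTD : IsSymBody (T '' (K - K)) := hD.image T
  have hb := johnPos_bounded hTD hT
  obtain ⟨x₀, hx₀⟩ : K.Nonempty := hK.int.mono interior_subset
  have hbody : IsBody ((fun x => -T x₀ + x) '' (T '' K)) := (hK.image T).translate _
  refine ⟨T, -T x₀, ⟨⟨_, hbody.compact⟩, hbody.int.mono interior_subset⟩, rfl, hbody.convex, ?_, ?_⟩
  · rintro _ ⟨_, ⟨x, hx, rfl⟩, rfl⟩
    refine hb ⟨x - x₀, Set.sub_mem_sub hx hx₀, ?_⟩
    rw [map_sub]
    exact (neg_add_eq_sub _ _).symm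
  · intro z hz
    obtain ⟨w, hw, rfl⟩ := hT.1 hz
    obtain ⟨x, hx, y, hy, rfl⟩ := Set.mem_sub.1 hw
    refine ⟨-T x₀ + T x, ⟨_, ⟨x, hx, rfl⟩, rfl⟩, -T x₀ + T y, ⟨_, ⟨y, hy, rfl⟩, rfl⟩, ?_⟩
    rw [map_sub]
    abel

/-- **Stability from compactness.** -/
theorem stability (hd : 0 < finrank ℝ V) {m : ℝ} (hm : 0 < m)
    (hmin : ∀ K : Set V, IsBody K → m ≤ ratio K)
    (heq : ∀ K : Set V, IsBody K → ratio K = m →
      ∃ (a : V) (T : V ≃ₗ[ℝ] V), K = (fun x => a + T x) '' closedBall (0 : V) 1)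
    {ε : ℝ} (hε : 0 < ε) :
    ∃ δ : ℝ, 0 < δ ∧ ∀ K : Set V, IsBody K → ratio K ≤ (1 + δ) * m → Near ε K := by
  set q : ℕ := finrank ℝ V * (finrank ℝ V - 1) with hq
  have hcomp := isCompact_TT (V := V) (2 ^ finrank ℝ V)
  have hmain : ∃ δ : ℝ, 0 < δ ∧ ∀ K ∈ (TT (2 ^ finrank ℝ V) : Set (NonemptyCompacts V)),
      K ∈ TT (2 ^ finrank ℝ V) → ratio (K : Set V) ≤ (1 + δ) * m → Near ε (K : Set V) := by
    refine hcomp.induction_on (p := fun S => ∃ δ : ℝ, 0 < δ ∧ ∀ K ∈ S,
      K ∈ TT (2 ^ finrank ℝ V) → ratio (K : Set V) ≤ (1 + δ) * m → Near ε (K : Set V)) ?_ ?_ ?_ ?_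
    · exact ⟨1, one_pos, fun K hK => absurd hK (Set.notMem_empty K)⟩
    · rintro s t hst ⟨δ, hδ, h⟩
      exact ⟨δ, hδ, fun K hK => h K (hst hK)⟩
    · rintro s t ⟨δ₁, hδ₁, h₁⟩ ⟨δ₂, hδ₂, h₂⟩
      refine ⟨min δ₁ δ₂, lt_min hδ₁ hδ₂, fun K hK hKT hr => ?_⟩
      rcases hK with hK | hK
      · refine h₁ K hK hKT (hr.trans ?_)
        gcongr
        exact min_le_left _ _
      · refine h₂ K hK hKT (hr.trans ?_)
        gcongr
        exact min_le_right _ _
    · intro L hL
      have hLb := isBody_of_TT hL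
      rcases (hmin _ hLb).lt_or_eq with hlt | heq'
      · -- the ratio of `L` is not minimal
        have hcont : Filter.Tendsto (fun s : ℝ => (1 + s) ^ q * (1 + s) ^ q * ((1 + s) * m))
            (nhdsWithin 0 (Ioi 0)) (nhds ((1 + 0) ^ q * (1 + 0) ^ q * ((1 + 0) * m))) := by
          refine Filter.Tendsto.mono_left ?_ nhdsWithin_le_nhds
          refine ContinuousAt.tendsto
            (f := fun s : ℝ => (1 + s) ^ q * (1 + s) ^ q * ((1 + s) * m)) ?_
          fun_prop
        have h1 : ∀ᶠ s in nhdsWithin (0 : ℝ) (Ioi 0),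
            (1 + s) ^ q * (1 + s) ^ q * ((1 + s) * m) < ratio (L : Set V) := by
          refine hcont.eventually_lt_const ?_
          simpa using hlt
        have h2 : ∀ᶠ s in nhdsWithin (0 : ℝ) (Ioi 0), s < 1 :=
          nhdsWithin_le_nhds (Iio_mem_nhds one_pos)
        obtain ⟨s, ⟨hs1, hs2⟩, hs⟩ := ((h1.and h2).and self_mem_nhdsWithin).exists
        have hs : 0 < s := hs
        obtain ⟨a, ha⟩ := hLb.int
        obtain ⟨r, hr, hball⟩ := Metric.nhds_basis_closedBall.mem_iff.1
          (mem_interior_iff_mem_nhds.1 ha)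
        refine ⟨Metric.ball L (s * (r / 2)),
          mem_nhdsWithin_of_mem_nhds (Metric.ball_mem_nhds L (by positivity)), s, hs, ?_⟩
        intro K hKL hK hr'
        have hKb := isBody_of_TT hK
        obtain ⟨h3, h4⟩ := close_both hK.1 hL.1 hr hs hs2.le hball hKL
        have h5 := ratio_close hKb hLb hs h3 h4
        have h6 : (1 + s) ^ q * (1 + s) ^ q * ratio (K : Set V) ≤
            (1 + s) ^ q * (1 + s) ^ q * ((1 + s) * m) := by gcongr
        exact absurd (h5.trans h6) (not_le.2 hs1)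
      · -- `L` is an ellipsoid
        obtain ⟨a, T, hT⟩ := heq _ hLb heq'.symm
        -- a ball about the centre
        have hcT : Continuous T := LinearMap.continuous_of_finiteDimensional (T : V →ₗ[ℝ] V)
        have hcTs : Continuous T.symm :=
          LinearMap.continuous_of_finiteDimensional (T.symm : V →ₗ[ℝ] V)
        obtain ⟨r, hr, hball⟩ : ∃ r > 0, closedBall a r ⊆ (L : Set V) := by
          have hnh : T.symm ⁻¹' closedBall (0 : V) 1 ∈ nhds (0 : V) := by
            refine hcTs.continuousAt.preimage_mem_nhds ?_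
            rw [map_zero]
            exact closedBall_mem_nhds _ one_pos
          obtain ⟨r, hr, hr2⟩ := Metric.nhds_basis_closedBall.mem_iff.1 hnh
          refine ⟨r, hr, fun y hy => ?_⟩
          rw [hT]
          have hy' : y - a ∈ closedBall (0 : V) r := by
            rw [mem_closedBall_zero_iff, ← dist_eq_norm]
            exact hy
          exact ⟨T.symm (y - a), hr2 hy', by simp⟩
        set t : ℝ := min 1 (ε / 3) with ht
        have ht0 : 0 < t := lt_min one_pos (by positivity)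
        have ht1 : t ≤ 1 := min_le_left _ _
        have ht2 : t ≤ ε / 3 := min_le_right _ _
        have htε : (1 + t) * (1 + t) ≤ 1 + ε := by nlinarith
        refine ⟨Metric.ball L (t * (r / 2)),
          mem_nhdsWithin_of_mem_nhds (Metric.ball_mem_nhds L (by positivity)), 1, one_pos, ?_⟩
        intro K hKL hK _
        obtain ⟨h3, h4⟩ := close_both hK.1 hL.1 hr ht0 ht1 hball hKL
        have h0 : (1 + t) ≠ 0 := by positivity
        have hu : IsUnit (1 + t)⁻¹ := (isUnit_iff_ne_zero.2 (inv_ne_zero h0))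
        refine ⟨a, T.trans (LinearEquiv.smulOfNeZero ℝ V (1 + t)⁻¹ (inv_ne_zero h0)), ?_, ?_⟩
        · intro x hx
          have h5 := h4 (a + T x) (by rw [hT]; exact ⟨x, hx, rfl⟩)
          rw [add_sub_cancel_left] at h5
          exact h5
        · intro y hy
          have h5 := h3 y hy
          rw [hT] at h5
          obtain ⟨x, hx, hxy⟩ := h5
          have hxy : a + T x = a + (1 + t)⁻¹ • (y - a) := hxy
          have h6 : y - a = (1 + t) • T x := by
            have h7 := add_left_cancel hxy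
            rw [h7, smul_smul, mul_inv_cancel₀ h0, one_smul]
          refine ⟨((1 + t) * (1 + t) / (1 + ε)) • x, ?_, ?_⟩
          · rw [mem_closedBall_zero_iff] at hx ⊢
            rw [norm_smul, Real.norm_of_nonneg (by positivity)]
            have h8 : (1 + t) * (1 + t) / (1 + ε) ≤ 1 := by
              rw [div_le_one (by positivity)]
              exact htε
            have h9 : 0 ≤ (1 + t) * (1 + t) / (1 + ε) := by positivity
            calc (1 + t) * (1 + t) / (1 + ε) * ‖x‖ ≤ 1 * 1 := by gcongr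
              _ = 1 := one_mul _
          · have h10 : y = a + (y - a) := by abel
            rw [h10, h6]
            congr 1
            change _ = (1 + ε) • ((1 + t)⁻¹ • T (((1 + t) * (1 + t) / (1 + ε)) • x))
            rw [map_smul, smul_smul, smul_smul]
            congr 1
            field_simp
  obtain ⟨δ, hδ, h⟩ := hmain
  refine ⟨δ, hδ, fun K hK hr => ?_⟩
  obtain ⟨T, c, K', hK', hK'T⟩ := exists_normalized hK
  have hr' : ratio (K' : Set V) ≤ (1 + δ) * m := by
    rw [hK', ratio_translate, ratio_image T hK hd]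
    exact hr
  obtain ⟨a, S, h1, h2⟩ := h K' hK'T hK'T hr'
  rw [hK'] at h1 h2
  refine ⟨T.symm (a - c), S.trans T.symm, ?_, ?_⟩
  · intro x hx
    obtain ⟨_, ⟨y, hy, rfl⟩, hyx⟩ := h1 x hx
    have hyx : c + T y = a + S x := hyx
    have h3 : y = T.symm (a - c) + T.symm (S x) := by
      rw [← map_add, LinearEquiv.eq_symm_apply]
      rw [sub_add_eq_add_sub, ← hyx]
      abel
    rw [LinearEquiv.trans_apply, ← h3]
    exact hy
  · intro y hy
    obtain ⟨x, hx, hxy⟩ := h2 (c + T y) ⟨_, ⟨y, hy, rfl⟩, rfl⟩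
    refine ⟨x, hx, ?_⟩
    rw [LinearEquiv.trans_apply, ← map_smul, ← map_add, LinearEquiv.eq_symm_apply,
      sub_add_eq_add_sub, ← hxy]
    abel

end Vale.Agent.P237.H406
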